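import Mathlib

namespace Vale.Agent.Results.P307.EmptyVocabulary

universe u

open Cardinal Function

/-- An abstract elementary class in the empty vocabulary, over the sets (types) of a fixed
universe.  Structures of the empty vocabulary are bare sets.  `mem M` says that `M` is in the
class.  `emb f`, for a map `f : M → N`, says that `f` is a class embedding: `f` is injective,
`M` and `N` are in the class and the image of `f` is a strong submodel of `N`.  The fields are
the axioms of the problem text, written for embeddings. -/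
structure EmptyAEC where
  mem : Type u → Prop
  emb : ∀ {M N : Type u}, (M → N) → Prop
  emb_inj : ∀ {M N : Type u} {f : M → N}, emb f → Injective f
  emb_mem : ∀ {M N : Type u} {f : M → N}, emb f → mem M ∧ mem N
  mem_iso : ∀ {M N : Type u}, (M ≃ N) → mem M → mem N
  emb_iso : ∀ {M N : Type u} (e : M ≃ N), mem M → emb (e : M → N)
  emb_comp : ∀ {M N P : Type u} {f : M → N} {g : N → P}, emb f → emb g → emb (g ∘ f)
  coherence : ∀ {M0 M1 M2 : Type u} {f : M0 → M1} {g : M1 → M2},
    Injective f → emb g → emb (g ∘ f) → emb f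
  chain_union : ∀ {U I : Type u} [LinearOrder I] [WellFoundedLT I] [Nonempty I]
    (S : I → Set U) (hS : Monotone S), (⋃ i, S i) = Set.univ →
    (∀ i j (h : i ≤ j), emb (Set.inclusion (hS h))) →
    mem U ∧ ∀ i, emb (Subtype.val : S i → U)
  chain_smooth : ∀ {U I : Type u} [LinearOrder I] [WellFoundedLT I] [Nonempty I]
    (S : I → Set U) (hS : Monotone S), (⋃ i, S i) = Set.univ →
    (∀ i j (h : i ≤ j), emb (Set.inclusion (hS h))) →
    ∀ {N : Type u} (g : U → N), (∀ i, emb (fun x : S i => g x)) → emb g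
  ls : ∃ l : Cardinal.{u}, ℵ₀ ≤ l ∧ ∀ (M : Type u), mem M → ∀ A : Set M,
    ∃ N : Set M, A ⊆ N ∧ emb (Subtype.val : N → M) ∧ Cardinal.mk N ≤ Cardinal.mk A + l

/-- `l` is an infinite cardinal witnessing the Loewenheim-Skolem axiom. -/
def EmptyAEC.IsLS (K : EmptyAEC.{u}) (l : Cardinal.{u}) : Prop :=
  ℵ₀ ≤ l ∧ ∀ (M : Type u), K.mem M → ∀ A : Set M,
    ∃ N : Set M, A ⊆ N ∧ K.emb (Subtype.val : N → M) ∧ Cardinal.mk N ≤ Cardinal.mk A + l

/-- The Loewenheim-Skolem number: the least witness. -/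
noncomputable def EmptyAEC.LS (K : EmptyAEC.{u}) : Cardinal.{u} := sInf {l | K.IsLS l}

/-- Categoricity in `κ`: there is a model of cardinality `κ` and any two are isomorphic
(for the empty vocabulary an isomorphism is a bijection). -/
def EmptyAEC.Categorical (K : EmptyAEC.{u}) (κ : Cardinal.{u}) : Prop :=
  (∃ M : Type u, K.mem M ∧ Cardinal.mk M = κ) ∧
    ∀ M N : Type u, K.mem M → K.mem N → Cardinal.mk M = κ → Cardinal.mk N = κ →
      Nonempty (M ≃ N)

variable (K : EmptyAEC.{u})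

theorem isLS_LS : K.IsLS K.LS := csInf_mem (s := {l | K.IsLS l}) K.ls

theorem isLS_of_le {lam : Cardinal.{u}} (h : K.LS ≤ lam) : K.IsLS lam := by
  obtain ⟨h0, h1⟩ := isLS_LS K
  refine ⟨h0.trans h, fun M hM A => ?_⟩
  obtain ⟨N, hAN, hN, hc⟩ := h1 M hM A
  exact ⟨N, hAN, hN, hc.trans (by gcongr)⟩

/-- transfer of the embedding property between injections of the same shape -/
theorem emb_transfer {S M S' M' : Type u} {j : S → M} {j' : S' → M'} (hj : Injective j)
    (hj' : K.emb j') (h1 : Cardinal.mk S = Cardinal.mk S')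
    (h2 : Cardinal.mk ((Set.range j)ᶜ : Set M) = Cardinal.mk ((Set.range j')ᶜ : Set M')) :
    K.emb j := by
  classical
  obtain ⟨e⟩ := Cardinal.eq.1 h1
  obtain ⟨c⟩ := Cardinal.eq.1 h2
  have hi' := K.emb_inj hj'
  let E : M' ≃ M :=
    (Equiv.Set.sumCompl (Set.range j')).symm.trans
      ((Equiv.sumCongr ((Equiv.ofInjective j' hi').symm.trans
        (e.symm.trans (Equiv.ofInjective j hj))) c.symm).trans
        (Equiv.Set.sumCompl (Set.range j)))
  have hE : ∀ s : S, E (j' (e s)) = j s := by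
    intro s
    have hm : j' (e s) ∈ Set.range j' := ⟨_, rfl⟩
    simp only [E, Equiv.trans_apply]
    rw [Equiv.Set.sumCompl_symm_apply_of_mem hm]
    rw [Equiv.sumCongr_apply, Sum.map_inl, Equiv.Set.sumCompl_apply_inl]
    simp only [Equiv.trans_apply]
    have h4 : (Equiv.ofInjective j' hi').symm ⟨j' (e s), hm⟩ = e s :=
      Equiv.ofInjective_symm_apply hi' (e s)
    rw [h4, Equiv.symm_apply_apply]
    rfl
  have hmem := K.emb_mem hj'
  have h3 : K.emb ((E : M' → M) ∘ (j' ∘ (e : S → S'))) :=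
    K.emb_comp (K.emb_comp (K.emb_iso e (K.mem_iso e.symm hmem.1)) hj') (K.emb_iso E hmem.2)
  have : ((E : M' → M) ∘ (j' ∘ (e : S → S'))) = j := by
    funext s; exact hE s
  rwa [this] at h3

/-- every injection with domain of size at least `lam` and codomain of size at most `κ` is an
embedding of the class -/
def Good (lam κ : Cardinal.{u}) : Prop :=
  ∀ (M N : Type u) (j : M → N), Injective j → lam ≤ Cardinal.mk M → Cardinal.mk N ≤ κ → K.emb j

/-- base case: a model of size above `lam` makes all injections between sets of size `lam`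
embeddings -/
theorem good_base {lam κ0 : Cardinal.{u}} (hLS : K.IsLS lam) (hlt : lam < κ0)
    {Mst : Type u} (hM : K.mem Mst) (hc : Cardinal.mk Mst = κ0) : Good K lam lam := by
  intro M N j hj hMl hNl
  have : Infinite Mst := Cardinal.infinite_iff.2 (hc ▸ (hLS.1.trans hlt.le))
  have hMN : Cardinal.mk M ≤ Cardinal.mk N := Cardinal.mk_le_of_injective hj
  have hN : Cardinal.mk N = lam := le_antisymm hNl (hMl.trans hMN)
  have hM' : Cardinal.mk M = lam := le_antisymm (hMN.trans hNl) hMl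
  obtain ⟨A, hA⟩ := Cardinal.le_mk_iff_exists_set.1 (hc ▸ hlt.le : lam ≤ Cardinal.mk Mst)
  obtain ⟨N', hAN, hN'emb, hN'c⟩ := hLS.2 Mst hM A
  have hN'card : Cardinal.mk N' = lam := by
    apply le_antisymm
    · rw [hA, Cardinal.add_eq_self hLS.1] at hN'c
      exact hN'c
    · rw [← hA]; exact Cardinal.mk_le_mk_of_subset hAN
  obtain ⟨b⟩ := Cardinal.eq.1 (hN.trans hN'card.symm)
  have hmemN' := (K.emb_mem hN'emb).1
  have hg : K.emb ((Subtype.val : N' → Mst) ∘ (b : N → N')) :=
    K.emb_comp (K.emb_iso b (K.mem_iso b.symm hmemN')) hN'emb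
  have hginj := K.emb_inj hg
  have hcompl : ∀ (T : Type u) (t : T → Mst), Injective t → Cardinal.mk T = lam →
      Cardinal.mk ((Set.range t)ᶜ : Set Mst) = κ0 := by
    intro T t ht hT
    rw [← hc]
    apply Cardinal.mk_compl_of_infinite
    rw [Cardinal.mk_range_eq t ht, hT, hc]
    exact hlt
  have hgj : K.emb (((Subtype.val : N' → Mst) ∘ (b : N → N')) ∘ j) := by
    apply emb_transfer K (hginj.comp hj) hN'emb (hM'.trans hN'card.symm)
    rw [hcompl _ _ (hginj.comp hj) hM', hcompl _ _ Subtype.val_injective hN'card]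
  exact K.coherence hj hg hgj

/-- the filtration of a set of size `κ` by small subsets containing a given small subset -/
def filt {U : Type u} {κ : Cardinal.{u}} (e : U ≃ κ.ord.ToType) (S0 : Set U)
    (i : κ.ord.ToType) : Set U := S0 ∪ {x | e x < i}

theorem filt_mono {U : Type u} {κ : Cardinal.{u}} (e : U ≃ κ.ord.ToType) (S0 : Set U) :
    Monotone (filt e S0) := by
  intro i j hij x hx
  rcases hx with hx | hx
  · exact Or.inl hx
  · exact Or.inr (lt_of_lt_of_le hx hij)

theorem filt_union {U : Type u} {κ : Cardinal.{u}} (hκ : ℵ₀ ≤ κ) (e : U ≃ κ.ord.ToType)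
    (S0 : Set U) : (⋃ i, filt e S0 i) = Set.univ := by
  have := Cardinal.noMaxOrder hκ
  apply Set.eq_univ_of_forall
  intro x
  obtain ⟨i, hi⟩ := exists_gt (e x)
  exact Set.mem_iUnion.2 ⟨i, Or.inr hi⟩

theorem filt_card_lt {U : Type u} {κ : Cardinal.{u}} (hκ : ℵ₀ ≤ κ) (e : U ≃ κ.ord.ToType)
    (S0 : Set U) (h0 : Cardinal.mk S0 < κ) (i : κ.ord.ToType) :
    Cardinal.mk (filt e S0 i) < κ := by
  refine lt_of_le_of_lt (Cardinal.mk_union_le _ _) (Cardinal.add_lt_of_lt hκ h0 ?_)
  have h1 : Cardinal.mk {x | e x < i} = Cardinal.mk (Set.Iio i) := by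
    apply Cardinal.mk_congr
    exact e.subtypeEquiv (fun x => Iff.rfl)
  rw [h1]
  exact Cardinal.mk_Iio_toType_ord_lt i

theorem filt_card_ge {U : Type u} {κ : Cardinal.{u}} (e : U ≃ κ.ord.ToType)
    (S0 : Set U) (i : κ.ord.ToType) : Cardinal.mk S0 ≤ Cardinal.mk (filt e S0 i) :=
  Cardinal.mk_le_mk_of_subset Set.subset_union_left

theorem exists_equiv_ord {U : Type u} {κ : Cardinal.{u}} (hU : Cardinal.mk U = κ) :
    Nonempty (U ≃ κ.ord.ToType) :=
  Cardinal.eq.1 (by rw [hU, Cardinal.mk_toType, Cardinal.card_ord])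

theorem good_step {lam κ : Cardinal.{u}} (hlam : ℵ₀ ≤ lam) (hlt : lam < κ)
    (ih : ∀ κ', κ' < κ → lam ≤ κ' → Good K lam κ') : Good K lam κ := by
  have hκ : ℵ₀ ≤ κ := hlam.trans hlt.le
  have hne : Nonempty κ.ord.ToType := by
    apply Cardinal.mk_ne_zero_iff.1
    rw [Cardinal.mk_toType, Cardinal.card_ord]
    exact (lt_of_lt_of_le Cardinal.aleph0_pos hκ).ne'
  have hincl : ∀ (U : Type u) (e : U ≃ κ.ord.ToType) (S0 : Set U), lam ≤ Cardinal.mk S0 →
      Cardinal.mk S0 < κ → ∀ i j (h : i ≤ j), K.emb (Set.inclusion (filt_mono e S0 h)) := by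
    intro U e S0 h1 h2 i j h
    exact ih _ (filt_card_lt hκ e S0 h2 j) (h1.trans (filt_card_ge e S0 j)) _ _ _
      (Set.inclusion_injective _) (h1.trans (filt_card_ge e S0 i)) le_rfl
  have E1 : ∀ (U : Type u), Cardinal.mk U = κ → ∀ S0 : Set U, lam ≤ Cardinal.mk S0 →
      Cardinal.mk S0 < κ → K.emb (Subtype.val : S0 → U) := by
    intro U hU S0 h1 h2
    obtain ⟨e⟩ := exists_equiv_ord hU
    obtain ⟨-, hval⟩ := K.chain_union (filt e S0) (filt_mono e S0) (filt_union hκ e S0)
      (hincl U e S0 h1 h2)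
    obtain ⟨i⟩ := hne
    have hsub : S0 ⊆ filt e S0 i := Set.subset_union_left
    have h3 : K.emb (Set.inclusion hsub) :=
      ih _ (filt_card_lt hκ e S0 h2 i) (h1.trans (filt_card_ge e S0 i)) _ _ _
        (Set.inclusion_injective _) h1 le_rfl
    have h4 := K.emb_comp h3 (hval i)
    exact h4
  have C1 : ∀ (M N : Type u) (j : M → N), Injective j → lam ≤ Cardinal.mk M →
      Cardinal.mk M < κ → Cardinal.mk N = κ → K.emb j := by
    intro M N j hj h1 h2 hN
    have hr : Cardinal.mk (Set.range j) = Cardinal.mk M := Cardinal.mk_range_eq j hj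
    have h3 := E1 N hN (Set.range j) (hr ▸ h1) (hr ▸ h2)
    have hmemM : K.mem M := (K.emb_mem (ih (Cardinal.mk M) h2 h1 M M id injective_id h1 le_rfl)).1
    have h4 := K.emb_comp (K.emb_iso (Equiv.ofInjective j hj) hmemM) h3
    exact h4
  intro M N j hj h1 h2
  have hMN : Cardinal.mk M ≤ Cardinal.mk N := Cardinal.mk_le_of_injective hj
  rcases lt_or_eq_of_le h2 with h2 | h2
  · exact ih _ h2 (h1.trans hMN) M N j hj h1 le_rfl
  · rcases lt_or_eq_of_le (hMN.trans h2.le) with h3 | h3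
    · exact C1 M N j hj h1 h3 h2
    · obtain ⟨S0, hS0⟩ := Cardinal.le_mk_iff_exists_set.1 (h3 ▸ hlt.le : lam ≤ Cardinal.mk M)
      obtain ⟨e⟩ := exists_equiv_ord h3
      apply K.chain_smooth (filt e S0) (filt_mono e S0) (filt_union hκ e S0)
        (hincl M e S0 hS0.ge (hS0 ▸ hlt)) j
      intro i
      exact C1 _ _ _ (hj.comp Subtype.val_injective) (hS0.ge.trans (filt_card_ge e S0 i))
        (filt_card_lt hκ e S0 (hS0 ▸ hlt) i) h2

theorem good_all {lam κ0 : Cardinal.{u}} (hLS : K.IsLS lam) (hlt : lam < κ0)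
    {Mst : Type u} (hM : K.mem Mst) (hc : Cardinal.mk Mst = κ0) :
    ∀ κ, lam ≤ κ → Good K lam κ := by
  intro κ
  induction κ using WellFoundedLT.induction with
  | ind κ ih =>
    intro hκ
    rcases eq_or_lt_of_le hκ with h | h
    · subst h
      exact good_base K hLS hlt hM hc
    · exact good_step K hLS.1 h (fun κ' h1 h2 => ih κ' h1 h2)

theorem main {lam κ0 : Cardinal.{u}} (hLS : K.LS ≤ lam) (hlt : lam < κ0)
    (hex : ∃ M : Type u, K.mem M ∧ Cardinal.mk M = κ0) :
    (∀ κ', lam ≤ κ' → K.Categorical κ') ∧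
      ∀ (M N : Type u) (j : M → N), Injective j → lam ≤ Cardinal.mk M → K.emb j := by
  obtain ⟨Mst, hM, hc⟩ := hex
  have hg := good_all K (isLS_of_le K hLS) hlt hM hc
  have hemb : ∀ (M N : Type u) (j : M → N), Injective j → lam ≤ Cardinal.mk M → K.emb j := by
    intro M N j hj h1
    exact hg (Cardinal.mk N) (h1.trans (Cardinal.mk_le_of_injective hj)) M N j hj h1 le_rfl
  refine ⟨fun κ' hκ' => ⟨⟨κ'.out, ?_, Cardinal.mk_out κ'⟩, ?_⟩, hemb⟩
  · exact (K.emb_mem (hemb κ'.out κ'.out id injective_id (by rw [Cardinal.mk_out]; exact hκ'))).1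
  · intro M N _ _ h1 h2
    exact Cardinal.eq.1 (h1.trans h2.symm)

/-- Shelah's eventual categoricity conjecture holds for all abstract elementary classes in the
empty vocabulary, with threshold the successor of `lam`. -/
theorem result :
    (∀ lam : Cardinal.{u}, ℵ₀ ≤ lam → ∃ mu : Cardinal.{u}, lam ≤ mu ∧
      ∀ K : EmptyAEC.{u}, K.LS ≤ lam → (∃ κ, mu ≤ κ ∧ K.Categorical κ) →
        ∀ κ', mu ≤ κ' → K.Categorical κ') ∧
    (∀ (K : EmptyAEC.{u}) (lam κ : Cardinal.{u}), K.LS ≤ lam → lam < κ →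
      (∃ M : Type u, K.mem M ∧ Cardinal.mk M = κ) →
      (∀ κ', lam ≤ κ' → K.Categorical κ') ∧
        ∀ (M N : Type u) (j : M → N), Injective j → lam ≤ Cardinal.mk M → K.emb j) := by
  refine ⟨fun lam _ => ⟨Order.succ lam, Order.le_succ lam, ?_⟩, fun K lam κ h1 h2 h3 =>
    main K h1 h2 h3⟩
  rintro K hLS ⟨κ, hκ, hcat⟩ κ' hκ'
  exact (main K hLS (Order.succ_le_iff.1 hκ) hcat.1).1 κ' ((Order.le_succ lam).trans hκ')

end Vale.Agent.Results.P307.EmptyVocabulary
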