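import Mathlib
import Vale.Agent.Lib.P307.Main

open Vale.Agent.Lib.P307 Cardinal

namespace Vale.Agent.Results.P307.UnaryVocabulary

universe u

/-- The Loewenheim-Skolem number of an abstract elementary class `K` in the vocabulary consisting
of the unary predicates `P_i`, `i : τ`.  A structure is a set `M` with `c : M → (τ → Prop)`, where
`c x i` says that `P_i` holds at `x`.  The number is the least infinite cardinal `l` that is at least
the size of the vocabulary and witnesses the Loewenheim-Skolem axiom. -/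
noncomputable def LSnum {τ : Type u} (K : ColAEC (τ → Prop)) : Cardinal.{u} :=
  sInf {l | Cardinal.mk τ ≤ l ∧ K.IsLS l}

theorem isLS_mono {Γ : Type u} (K : ColAEC Γ) {l l' : Cardinal.{u}} (h : K.IsLS l) (hl : l ≤ l') :
    K.IsLS l' := by
  refine ⟨h.1.trans hl, fun M c hM A => ?_⟩
  obtain ⟨N, hAN, hN, hc⟩ := h.2 M c hM A
  exact ⟨N, hAN, hN, hc.trans (by gcongr)⟩

theorem LSnum_spec {τ : Type u} (K : ColAEC (τ → Prop)) :
    Cardinal.mk τ ≤ LSnum K ∧ K.IsLS (LSnum K) := by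
  have hne : {l | Cardinal.mk τ ≤ l ∧ K.IsLS l}.Nonempty := by
    obtain ⟨l, hl⟩ := K.ls
    exact ⟨max l (Cardinal.mk τ), le_max_right _ _, isLS_mono K hl (le_max_left _ _)⟩
  exact csInf_mem hne

/-- Shelah's eventual categoricity conjecture for vocabularies of unary predicates. -/
theorem result :
    (∀ lam : Cardinal.{u}, ℵ₀ ≤ lam → ∃ mu : Cardinal.{u}, lam ≤ mu ∧
      ∀ (τ : Type u) (K : ColAEC (τ → Prop)), LSnum K ≤ lam →
        (∃ κ, mu ≤ κ ∧ K.Categorical κ) → ∀ κ', mu ≤ κ' → K.Categorical κ') ∧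
    (∀ (τ : Type u) (K : ColAEC (τ → Prop)) (lam κ : Cardinal.{u}), LSnum K ≤ lam →
      2 ^ lam < κ → K.Categorical κ → ∀ κ', 2 ^ lam < κ' → K.Categorical κ') ∧
    (∀ (τ : Type u) [Finite τ] (K : ColAEC (τ → Prop)) (lam κ : Cardinal.{u}), LSnum K ≤ lam →
      lam < κ → K.Categorical κ → ∀ κ', lam < κ' → K.Categorical κ') := by
  have key : ∀ (τ : Type u) (K : ColAEC (τ → Prop)) (lam κ : Cardinal.{u}), LSnum K ≤ lam →
      2 ^ lam < κ → K.Categorical κ → ∀ κ', 2 ^ lam < κ' → K.Categorical κ' := by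
    intro τ K lam κ hLS hκ hcat κ' hκ'
    obtain ⟨h1, h2⟩ := LSnum_spec K
    have hle : lam ≤ 2 ^ lam := (Cardinal.cantor lam).le
    have hΓ : Cardinal.mk (τ → Prop) ≤ 2 ^ lam := by
      change Cardinal.mk (Set τ) ≤ 2 ^ lam
      rw [Cardinal.mk_set]
      exact Cardinal.power_le_power_left two_ne_zero (h1.trans hLS)
    exact main K (isLS_mono K h2 (hLS.trans hle)) hΓ hκ hcat κ' hκ'
  refine ⟨fun lam _ => ⟨Order.succ (2 ^ lam),
    (Cardinal.cantor lam).le.trans (Order.le_succ _), ?_⟩, key, ?_⟩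
  · rintro τ K hLS ⟨κ, hκ, hcat⟩ κ' hκ'
    exact key τ K lam κ hLS (Order.succ_le_iff.1 hκ) hcat κ' (Order.succ_le_iff.1 hκ')
  · intro τ _ K lam κ hLS hκ hcat κ' hκ'
    obtain ⟨-, h2⟩ := LSnum_spec K
    have h3 := isLS_mono K h2 hLS
    have hΓ : Cardinal.mk (τ → Prop) ≤ lam :=
      (Cardinal.lt_aleph0_of_finite _).le.trans h3.1
    exact main K h3 hΓ hκ hcat κ' hκ'

end Vale.Agent.Results.P307.UnaryVocabulary
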